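import Crest.Agent.PVb.Lib.PT.All
import Crest.Prelude.Def_MultigraphCut

/-!
# Row 37: edge lists, their cuts, and the core statement

A multigraph on the vertices `0, …, n - 1` is a list of pairs (parallel edges are repeated).
-/

set_option autoImplicit false

namespace Crest.Agent.X37.IO

open Crest.Agent.Lib.PT

/-- exactly one end of the pair lies in `S` -/
def crossB (S : Finset ℕ) (e : ℕ × ℕ) : Bool :=
  decide ((e.1 ∈ S ∧ e.2 ∉ S) ∨ (e.1 ∉ S ∧ e.2 ∈ S))

/-- the number of edges of the list with exactly one end in `S` -/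
def cutL (es : List (ℕ × ℕ)) (S : Finset ℕ) : ℕ := es.countP (crossB S)

/-- all edges join two distinct vertices below `n` -/
def Loopless (n : ℕ) (es : List (ℕ × ℕ)) : Prop := ∀ e ∈ es, e.1 < n ∧ e.2 < n ∧ e.1 ≠ e.2

/-- `S` is a non-empty proper subset of the vertex set -/
def Proper (n : ℕ) (S : Finset ℕ) : Prop :=
  S ⊆ Finset.range n ∧ S.Nonempty ∧ S ≠ Finset.range n

/-- **The core of row 37**: a polynomial-time map from a `k`-edge-connected edge list to a
connected set of its edges with thin cuts (not necessarily a tree). -/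
def CoreStatement : Prop :=
  ∃ (C : ℝ) (core : Un × ℕ × List (ℕ × ℕ) → List (ℕ × ℕ)), 0 < C ∧ PT core ∧
    ∀ (n k : ℕ) (es : List (ℕ × ℕ)), 1 ≤ k → Loopless n es →
      (∀ S, Proper n S → k ≤ cutL es S) →
      (∀ e ∈ core (⟨n⟩, k, es), e ∈ es) ∧
      ∀ S, Proper n S → 1 ≤ cutL (core (⟨n⟩, k, es)) S ∧
        (cutL (core (⟨n⟩, k, es)) S : ℝ) ≤ C / k * cutL es S

theorem crossB_iff {S : Finset ℕ} {e : ℕ × ℕ} :
    crossB S e = true ↔ (e.1 ∈ S ∧ e.2 ∉ S) ∨ (e.1 ∉ S ∧ e.2 ∈ S) := by simp [crossB]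

@[simp] theorem cutL_nil (S : Finset ℕ) : cutL [] S = 0 := rfl




theorem cutL_perm {es es' : List (ℕ × ℕ)} (h : es.Perm es') (S : Finset ℕ) :
    cutL es S = cutL es' S := h.countP_eq _

theorem cutL_le_length (es : List (ℕ × ℕ)) (S : Finset ℕ) : cutL es S ≤ es.length :=
  List.countP_le_length

theorem cutL_pos {es : List (ℕ × ℕ)} {S : Finset ℕ} :
    1 ≤ cutL es S ↔ ∃ e ∈ es, crossB S e = true := by
  rw [cutL, Nat.one_le_iff_ne_zero, ← Nat.pos_iff_ne_zero, List.countP_pos_iff]

theorem Loopless.sublist {n : ℕ} {es es' : List (ℕ × ℕ)} (h : Loopless n es)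
    (hs : ∀ e ∈ es', e ∈ es) : Loopless n es' := fun e he => h e (hs e he)

/-! ### The same multigraph with endpoint maps -/

/-- first ends -/
def srcF {n : ℕ} {es : List (ℕ × ℕ)} (h : Loopless n es) (i : Fin es.length) : Fin n :=
  ⟨(es.get i).1, (h _ (List.get_mem es i)).1⟩

/-- second ends -/
def tgtF {n : ℕ} {es : List (ℕ × ℕ)} (h : Loopless n es) (i : Fin es.length) : Fin n :=
  ⟨(es.get i).2, (h _ (List.get_mem es i)).2.1⟩

theorem srcF_ne_tgtF {n : ℕ} {es : List (ℕ × ℕ)} (h : Loopless n es) (i : Fin es.length) :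
    srcF h i ≠ tgtF h i := fun e => (h _ (List.get_mem es i)).2.2 (congrArg Fin.val e)

/-- a set of vertices of `Fin n` as a set of numbers -/
def vals {n : ℕ} (S : Finset (Fin n)) : Finset ℕ := S.map Fin.valEmbedding

@[simp] theorem val_mem_vals {n : ℕ} {S : Finset (Fin n)} {i : Fin n} : (i : ℕ) ∈ vals S ↔ i ∈ S :=
  Finset.mem_map' _

theorem mem_vals {n : ℕ} {S : Finset (Fin n)} {x : ℕ} : x ∈ vals S ↔ ∃ h : x < n, ⟨x, h⟩ ∈ S := by
  constructor
  · intro hx
    obtain ⟨i, hi, rfl⟩ := Finset.mem_map.1 hx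
    exact ⟨i.2, hi⟩
  · rintro ⟨h, hx⟩
    exact (val_mem_vals (i := ⟨x, h⟩)).2 hx

theorem vals_subset {n : ℕ} (S : Finset (Fin n)) : vals S ⊆ Finset.range n := fun _ hx =>
  Finset.mem_range.2 (mem_vals.1 hx).1

theorem vals_univ (n : ℕ) : vals (Finset.univ : Finset (Fin n)) = Finset.range n := by
  ext x; simp [mem_vals]

theorem vals_injective {n : ℕ} : Function.Injective (vals : Finset (Fin n) → Finset ℕ) :=
  Finset.map_injective _

theorem exists_vals {n : ℕ} {S : Finset ℕ} (h : S ⊆ Finset.range n) :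
    ∃ S' : Finset (Fin n), vals S' = S := by
  refine ⟨Finset.univ.filter fun i => (i : ℕ) ∈ S, ?_⟩
  ext x
  simp only [mem_vals, Finset.mem_filter, Finset.mem_univ, true_and, exists_prop, and_iff_right_iff_imp]
  exact fun hx => Finset.mem_range.1 (h hx)

theorem proper_vals {n : ℕ} {S : Finset (Fin n)} :
    Proper n (vals S) ↔ S.Nonempty ∧ S ≠ Finset.univ := by
  rw [Proper, ← vals_univ, vals_injective.ne_iff, vals_univ]
  have : (vals S).Nonempty ↔ S.Nonempty := Finset.map_nonempty
  rw [this]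
  exact and_iff_right (vals_subset S)

/-- statements on all proper sets of numbers are statements on all proper sets of `Fin n` -/
theorem forall_proper {n : ℕ} {p : Finset ℕ → Prop} :
    (∀ S, Proper n S → p S) ↔
      ∀ S : Finset (Fin n), S.Nonempty → S ≠ Finset.univ → p (vals S) := by
  constructor
  · exact fun h S h1 h2 => h _ (proper_vals.2 ⟨h1, h2⟩)
  · intro h S hS
    obtain ⟨S', rfl⟩ := exists_vals hS.1
    exact h _ (proper_vals.1 hS).1 (proper_vals.1 hS).2

theorem countP_eq_card {α : Type} (l : List α) (p : α → Bool) :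
    l.countP p = (Finset.univ.filter fun i : Fin l.length => p (l.get i) = true).card := by
  conv_lhs => rw [← List.ofFn_get l, List.ofFn_eq_map, List.countP_map, List.countP_eq_length_filter]
  rw [← List.toFinset_card_of_nodup ((List.nodup_finRange _).filter _)]
  congr 1
  ext i
  simp

open Crest.CombinatoricsR.Multigraph in
/-- the cut of the list is the cut of the multigraph with endpoint maps -/
theorem cutL_vals {n : ℕ} {es : List (ℕ × ℕ)} (h : Loopless n es) (S : Finset (Fin n)) :
    cutL es (vals S) = (cutEdges (srcF h) (tgtF h) Finset.univ S).card := by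
  rw [cutL, countP_eq_card, cutEdges]
  congr 1
  refine Finset.filter_congr fun i _ => ?_
  rw [crossB_iff, ← val_mem_vals (i := srcF h i), ← val_mem_vals (i := tgtF h i)]
  rfl

end Crest.Agent.X37.IO
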